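import Mathlib.Topology.Subpath
import Vale.Agent.P246.T.Spec

/-! # Block YP: decomposition of paths in a space with one more cell -/

namespace Vale.Agent.P246.T.YP

open Topology Metric Set

/-- homotopy classes of paths -/
abbrev PQ {M : Type} [TopologicalSpace M] (x y : M) : Type := Path.Homotopic.Quotient x y

theorem norm_expd_one {n : ℕ} {x : Dk n} (h : 1 / 2 < ‖(x : Fin n → ℝ)‖) :
    ‖((expd n 1 x : Dk n) : Fin n → ℝ)‖ = 1 := by
  have h1 : ((1 : I) : ℝ) = 1 := rfl
  change ‖((1 + ((1 : I) : ℝ)) / max 1 ((1 + ((1 : I) : ℝ)) * ‖(x : Fin n → ℝ)‖)) •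
    (x : Fin n → ℝ)‖ = 1
  rw [h1, max_eq_right (by linarith), norm_smul, Real.norm_of_nonneg (by positivity),
    div_mul_eq_mul_div, div_self (by positivity)]

section Dec

variable {X : Type} [TopologicalSpace X] {n : ℕ} {A B : Set X} {Φ : C(Dk n, X)}

/-- the characteristic map into `B` -/
def phB (h : CellData n Unit B A fun _ => Φ) : C(Dk n, B) :=
  ⟨fun x => ⟨Φ x, h.mem () x⟩, Φ.continuous.subtype_mk _⟩

/-- a map into the open cell lifts to the cube -/
theorem lift_seg (h : CellData n Unit B A fun _ => Φ) (δ : C(I, B))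
    (hδ : ∀ t, ∃ x : Dk n, ‖(x : Fin n → ℝ)‖ < 1 ∧ Φ x = δ t) :
    ∃ z : C(I, Dk n), ∀ t, ‖(z t : Fin n → ℝ)‖ < 1 ∧ Φ (z t) = δ t := by
  choose z hz1 hz2 using hδ
  refine ⟨⟨z, ?_⟩, fun t => ⟨hz1 t, hz2 t⟩⟩
  refine continuous_def.2 fun U hU => ?_
  have hU' : IsOpen (U ∩ {x : Dk n | ‖(x : Fin n → ℝ)‖ < 1}) :=
    hU.inter (isOpen_lt (by fun_prop) continuous_const)
  obtain ⟨O, hO, hOe⟩ := h.openV () _ hU' fun x hx => hx.2
  have : z ⁻¹' U = (fun t => (δ t : X)) ⁻¹' O := by
    ext t
    constructor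
    · intro ht
      have h1 : (δ t : X) ∈ O ∩ B := by
        rw [hOe]
        exact ⟨z t, ⟨ht, hz1 t⟩, hz2 t⟩
      exact h1.1
    · intro ht
      have h1 : (δ t : X) ∈ O ∩ B := ⟨ht, (δ t).2⟩
      rw [hOe] at h1
      obtain ⟨x, hx, hxe⟩ := h1
      have h2 := (h.inj () () (z t) x (hz1 t) hx.2 ((hz2 t).trans hxe.symm)).2
      change z t ∈ U
      rw [h2]
      exact hx.1
  rw [this]
  exact hO.preimage (continuous_subtype_val.comp δ.continuous)

/-- **Decomposition of paths.** A property of homotopy classes of paths with end points in `Q` which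
holds for paths in `A` and for paths in the cell, and which passes to products, holds for all paths. -/
theorem dec (h : CellData n Unit B A fun _ => Φ) (Q : Set X) (hQA : Q ⊆ A)
    (hQ : ∀ x : Dk n, ‖(x : Fin n → ℝ)‖ = 1 → Φ x ∈ Q)
    (C : ∀ u v : B, PQ u v → Prop)
    (tr : ∀ (u v w : B) (a : PQ u v) (b : PQ v w), u.1 ∈ Q → v.1 ∈ Q → w.1 ∈ Q → C u v a →
      C v w b → C u w (a.trans b))
    (hA : ∀ (u v : B) (γ : Path u v), u.1 ∈ Q → v.1 ∈ Q → (∀ t, (γ t).1 ∈ A) →
      C u v (Path.Homotopic.Quotient.mk γ))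
    (hΦ : ∀ (x y : Dk n) (β : Path x y), ‖(x : Fin n → ℝ)‖ = 1 → ‖(y : Fin n → ℝ)‖ = 1 →
      C (phB h x) (phB h y) (Path.Homotopic.Quotient.mk (β.map (phB h).continuous)))
    (u v : B) (γ : Path u v) (hu : u.1 ∈ Q) (hv : v.1 ∈ Q) :
    C u v (Path.Homotopic.Quotient.mk γ) := by
  obtain ⟨ρ, ρ0, ρA, ρΦ⟩ := h.htpy
  -- the deformed path
  let f : Path u v :=
    { toFun := fun t => ρ (1, γ t)
      continuous_toFun := by fun_prop
      source' := by rw [γ.source]; exact ρA 1 u (hQA hu)
      target' := by rw [γ.target]; exact ρA 1 v (hQA hv) }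
  have hfa : ∀ t, f t = ρ (1, γ t) := fun t => rfl
  have hf : Path.Homotopic.Quotient.mk γ = Path.Homotopic.Quotient.mk f := by
    refine Path.Homotopic.Quotient.eq.2 ⟨?_⟩
    exact
      { toFun := fun q => ρ (q.1, γ q.2)
        continuous_toFun := by fun_prop
        map_zero_left := fun t => ρ0 (γ t)
        map_one_left := fun t => rfl
        prop' := by
          intro t x hx
          rcases hx with rfl | rfl
          · change ρ (t, γ 0) = γ 0
            rw [γ.source]
            exact ρA t u (hQA hu)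
          · change ρ (t, γ 1) = γ 1
            rw [γ.target]
            exact ρA t v (hQA hv) }
  rw [hf]
  -- the cover
  obtain ⟨OV, hOV, hOVe⟩ := h.openV () {x | ‖(x : Fin n → ℝ)‖ < 1}
    (isOpen_lt (by fun_prop) continuous_const) fun x hx => hx
  obtain ⟨OW, hOW, hOWe⟩ := h.openW
  let c : Bool → Set I := fun b => (fun t => (γ t : X)) ⁻¹' (if b then OV else OW)
  have hc : ∀ b, IsOpen (c b) := by
    intro b
    refine IsOpen.preimage (by fun_prop) ?_
    cases b
    · exact hOW
    · exact hOV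
  have hlt : ∀ x : Dk n, ‖(x : Fin n → ℝ)‖ < 1 ∨ ‖(x : Fin n → ℝ)‖ = 1 := fun x =>
    (mem_closedBall_zero_iff.1 x.2).lt_or_eq
  have hAW : ∀ y : B, y.1 ∈ A → y.1 ∈ OW := by
    intro y hy
    have : y.1 ∈ OW ∩ B := by
      rw [hOWe]
      refine ⟨y.2, fun g x hx => ?_⟩
      rcases hlt x with h1 | h1
      · exact absurd (by rw [hx]; exact hy) (h.int g x h1)
      · rw [h1]; norm_num
    exact this.1
  have hcov : univ ⊆ ⋃ b, c b := by
    intro t _
    rw [mem_iUnion]
    rcases h.cover (γ t).1 (γ t).2 with h1 | ⟨g, x, hx⟩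
    · exact ⟨false, hAW _ h1⟩
    · rcases hlt x with h2 | h2
      · refine ⟨true, ?_⟩
        have : (γ t).1 ∈ OV ∩ B := by
          rw [hOVe]
          exact ⟨x, h2, hx⟩
        exact this.1
      · exact ⟨false, hAW _ (by rw [← hx]; exact h.bdry g x h2)⟩
  obtain ⟨t, t0, tm, ⟨N, hN⟩, hsub⟩ := exists_monotone_Icc_subset_open_cover_unitInterval hc hcov
  -- the deformation of the two parts
  have hW : ∀ y : B, y.1 ∈ OW → (ρ (1, y)).1 ∈ A := by
    intro y hy
    have hy' : y.1 ∈ OW ∩ B := ⟨hy, y.2⟩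
    rw [hOWe] at hy'
    rcases h.cover y.1 y.2 with h1 | ⟨g, x, hx⟩
    · rw [ρA 1 y h1]
      exact h1
    · have h2 := hy'.2 g x hx
      have h3 := ρΦ 1 g x
      have h4 : (⟨Φ x, h.mem g x⟩ : B) = y := Subtype.ext hx
      rw [h4] at h3
      rw [h3]
      exact h.bdry g _ (norm_expd_one h2)
  have hV : ∀ (y : B) (x : Dk n), Φ x = y.1 → (ρ (1, y)) = phB h (expd n 1 x) := by
    intro y x hx
    have h4 : (⟨Φ x, h.mem () x⟩ : B) = y := Subtype.ext hx
    have h3 := ρΦ 1 () x
    rw [h4] at h3
    exact Subtype.ext h3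
  have hf0 : (f 0).1 ∈ Q := by rw [f.source]; exact hu
  -- the induction
  have main : ∀ k : ℕ, ∃ (q : B) (π : PQ (f 0) q), q.1 ∈ Q ∧ C (f 0) q π ∧
      ((∃ α : Path q (f (t k)), (∀ s, (α s).1 ∈ A) ∧
        π.trans (Path.Homotopic.Quotient.mk α) =
          Path.Homotopic.Quotient.mk (f.subpath 0 (t k))) ∨
      ∃ (x₀ x₁ : Dk n) (β : Path x₀ x₁) (z : Dk n) (e0 : q = phB h x₀)
        (e1 : f (t k) = phB h x₁), ‖(x₀ : Fin n → ℝ)‖ = 1 ∧ ‖(z : Fin n → ℝ)‖ < 1 ∧
          Φ z = (γ (t k)).1 ∧ x₁ = expd n 1 z ∧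
          π.trans ((Path.Homotopic.Quotient.mk (β.map (phB h).continuous)).cast e0 e1) =
            Path.Homotopic.Quotient.mk (f.subpath 0 (t k))) := by
    intro k
    induction k with
    | zero =>
      rw [t0]
      refine ⟨f 0, Path.Homotopic.Quotient.mk (Path.refl _), hf0,
        hA _ _ _ hf0 hf0 fun s => hQA hf0, Or.inl ⟨Path.refl _, fun s => hQA hf0, ?_⟩⟩
      rw [Path.subpath_self, Path.Homotopic.Quotient.mk_refl, Path.Homotopic.Quotient.refl_trans]
    | succ k ih =>
      obtain ⟨q, π, hq, hπ, hcase⟩ := ih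
      set piece := f.subpath (t k) (t (k + 1)) with hpiece
      have key : (Path.Homotopic.Quotient.mk (f.subpath 0 (t k))).trans
          (Path.Homotopic.Quotient.mk piece) =
          Path.Homotopic.Quotient.mk (f.subpath 0 (t (k + 1))) := by
        rw [← Path.Homotopic.Quotient.mk_trans]
        exact Path.Homotopic.Quotient.eq.2 ⟨Path.Homotopy.subpathTransSubpath f _ _ _⟩
      have hmem : ∀ s : I, Icc.convexComb (t k) (t (k + 1)) s ∈ Icc (t k) (t (k + 1)) :=
        fun s => ⟨Icc.le_convexComb (tm (Nat.le_succ k)) s,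
          Icc.convexComb_le (tm (Nat.le_succ k)) s⟩
      obtain ⟨b, hb⟩ := hsub k
      cases b with
      | false =>
        have hpA : ∀ s, (piece s).1 ∈ A := fun s => hW _ (hb (hmem s))
        rcases hcase with ⟨α, hα, hαe⟩ | ⟨x₀, x₁, β, z, e0, e1, hx₀, hz, hzγ, hx₁, he⟩
        · refine ⟨q, π, hq, hπ, Or.inl ⟨α.trans piece, fun s => ?_, ?_⟩⟩
          · rw [Path.trans_apply]
            split_ifs
            · exact hα _
            · exact hpA _
          · rw [Path.Homotopic.Quotient.mk_trans, ← Path.Homotopic.Quotient.trans_assoc, hαe, key]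
        · have h1 : (γ (t k)).1 ∈ OW ∩ B :=
            ⟨hb ⟨le_rfl, tm (Nat.le_succ k)⟩, (γ (t k)).2⟩
          rw [hOWe] at h1
          have h2 : ‖(x₁ : Fin n → ℝ)‖ = 1 := by
            rw [hx₁]
            exact norm_expd_one (h1.2 () z hzγ)
          have hft : (f (t k)).1 ∈ Q := by
            rw [e1]
            exact hQ x₁ h2
          refine ⟨f (t k), Path.Homotopic.Quotient.mk (f.subpath 0 (t k)), hft, ?_,
            Or.inl ⟨piece, hpA, ?_⟩⟩
          · rw [← he]
            refine tr _ _ _ _ _ hf0 hq hft hπ ?_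
            subst e0
            have h3 := hΦ x₀ x₁ β hx₀ h2
            have gen : ∀ (y : B) (e : y = phB h x₁), C (phB h x₀) y
                ((Path.Homotopic.Quotient.mk (β.map (phB h).continuous)).cast rfl e) := by
              rintro _ rfl
              rw [Path.Homotopic.Quotient.cast_rfl_rfl]
              exact h3
            exact gen _ e1
          · exact key
      | true =>
        have hpV : ∀ s, ∃ x : Dk n, ‖(x : Fin n → ℝ)‖ < 1 ∧
            Φ x = (γ (Icc.convexComb (t k) (t (k + 1)) s)).1 := by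
          intro s
          have h1 : (γ (Icc.convexComb (t k) (t (k + 1)) s)).1 ∈ OV ∩ B :=
            ⟨hb (hmem s), (γ _).2⟩
          rw [hOVe] at h1
          obtain ⟨x, hx, hxe⟩ := h1
          exact ⟨x, hx, hxe⟩
        obtain ⟨z', hz'⟩ := lift_seg h
          (γ.toContinuousMap.comp ⟨_, Icc.continuous_convexComb (t k) (t (k + 1))⟩) hpV
        -- the path in the cube
        have hexc : Continuous fun x : Dk n => expd n 1 x := by
          have h2 : Continuous fun x : Dk n => max 1 ((1 + ((1 : I) : ℝ)) * ‖(x : Fin n → ℝ)‖) := by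
            fun_prop
          exact Continuous.subtype_mk
            ((continuous_const.div h2 fun x => (lt_max_of_lt_left one_pos).ne').smul
              continuous_subtype_val) _
        let β' : Path (expd n 1 (z' 0)) (expd n 1 (z' 1)) :=
          { toFun := fun s => expd n 1 (z' s)
            continuous_toFun := hexc.comp z'.continuous
            source' := rfl
            target' := rfl }
        have hz0 : Φ (z' 0) = (γ (t k)).1 := by
          have := (hz' 0).2
          simpa using this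
        have hz1 : Φ (z' 1) = (γ (t (k + 1))).1 := by
          have := (hz' 1).2
          simpa using this
        have e0' : f (t k) = phB h (expd n 1 (z' 0)) := hV _ _ hz0
        have e1' : f (t (k + 1)) = phB h (expd n 1 (z' 1)) := hV _ _ hz1
        have hpβ : Path.Homotopic.Quotient.mk piece =
            (Path.Homotopic.Quotient.mk (β'.map (phB h).continuous)).cast e0' e1' := by
          rw [← Path.Homotopic.Quotient.mk_cast]
          congr 1
          ext s
          exact congrArg Subtype.val (hV _ _ (hz' s).2)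
        rcases hcase with ⟨α, hα, hαe⟩ | ⟨x₀, x₁, β, z, e0, e1, hx₀, hz, hzγ, hx₁, he⟩
        · have h1 : (f (t k)).1 ∈ A := by
            have := hα 1
            rwa [α.target] at this
          have h2 : ‖((expd n 1 (z' 0) : Dk n) : Fin n → ℝ)‖ = 1 := by
            rcases hlt (expd n 1 (z' 0)) with h3 | h3
            · rw [e0'] at h1
              exact absurd h1 (h.int () _ h3)
            · exact h3
          have hft : (f (t k)).1 ∈ Q := by
            rw [e0']
            exact hQ _ h2
          refine ⟨f (t k), Path.Homotopic.Quotient.mk (f.subpath 0 (t k)), hft, ?_,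
            Or.inr ⟨_, _, β', z' 1, e0', e1', h2, (hz' 1).1, hz1, rfl, ?_⟩⟩
          · rw [← hαe]
            exact tr _ _ _ _ _ hf0 hq hft hπ (hA _ _ _ hq hft hα)
          · rw [← hpβ]
            exact key
        · have hzz : z = z' 0 := by
            exact (h.inj () () z (z' 0) hz (hz' 0).1 (hzγ.trans hz0.symm)).2
          have hxx : x₁ = expd n 1 (z' 0) := by rw [hx₁, hzz]
          subst hxx
          refine ⟨q, π, hq, hπ, Or.inr ⟨x₀, _, β.trans β', z' 1, e0, e1', hx₀, (hz' 1).1, hz1,
            rfl, ?_⟩⟩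
          rw [← key, ← he, hpβ, Path.Homotopic.Quotient.trans_assoc]
          congr 1
          subst e0
          have gen : ∀ (y y' : B) (e : y = phB h (expd n 1 (z' 0)))
              (e' : y' = phB h (expd n 1 (z' 1))),
              (Path.Homotopic.Quotient.mk ((β.trans β').map (phB h).continuous)).cast rfl e' =
              ((Path.Homotopic.Quotient.mk (β.map (phB h).continuous)).cast rfl e).trans
                ((Path.Homotopic.Quotient.mk (β'.map (phB h).continuous)).cast e e') := by
            rintro _ _ rfl rfl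
            simp only [Path.Homotopic.Quotient.cast_rfl_rfl]
            rw [Path.map_trans, Path.Homotopic.Quotient.mk_trans]
          exact gen _ _ e1 e1'
  obtain ⟨q, π, hq, hπ, hcase⟩ := main N
  have htN : t N = 1 := hN N le_rfl
  have fin : C (f 0) (f 1) (Path.Homotopic.Quotient.mk (f.subpath 0 1)) := by
    rw [htN] at hcase
    rcases hcase with ⟨α, hα, hαe⟩ | ⟨x₀, x₁, β, z, e0, e1, hx₀, hz, hzγ, hx₁, he⟩
    · rw [← hαe]
      have hf1 : (f 1).1 ∈ Q := by rw [f.target]; exact hv
      exact tr _ _ _ _ _ hf0 hq hf1 hπ (hA _ _ _ hq hf1 hα)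
    · exfalso
      have h1 : (γ 1).1 ∈ A := by rw [γ.target]; exact hQA hv
      rw [← hzγ] at h1
      exact h.int () z hz h1
  rw [Path.subpath_zero_one] at fin
  have gen : ∀ (u' v' : B) (e : u' = u) (e' : v' = v),
      C u' v' (Path.Homotopic.Quotient.mk (f.cast e e')) →
      C u v (Path.Homotopic.Quotient.mk f) := by
    rintro _ _ rfl rfl h
    exact h
  exact gen _ _ _ _ fin

end Dec

end Vale.Agent.P246.T.YP
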