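import Vale.Agent.P246.T.YPDefs
import Vale.Agent.P246.T.CC.CC1

/-! # Block YP: the presentation complex is path connected, its skeleta are closed -/

namespace Vale.Agent.P246.T.YP

open Topology Metric Set

variable {G : Type} [Group G] {Pr : FinPresentation G} {X E : Type} [TopologicalSpace X]
    [TopologicalSpace E] [MulAction G E] [ContinuousConstSMul G E] {p : C(E, X)}

theorem closed1 [T2Space X] (c : PresCx Pr p) (k : ℕ) : IsClosed (c.Y1 k) := by
  refine isClosed_singleton.union ?_
  refine isClosed_iUnion_of_finite fun i => isClosed_iUnion_of_finite fun _ => ?_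
  exact (isCompact_range (p.comp (c.edge i)).continuous).isClosed

theorem closed2 [T2Space X] (c : PresCx Pr p) (k : ℕ) : IsClosed (c.Y2 k) := by
  refine (closed1 c _).union ?_
  refine isClosed_iUnion_of_finite fun j => isClosed_iUnion_of_finite fun _ => ?_
  exact (isCompact_range (p.comp (c.b j)).continuous).isClosed

theorem closedY [T2Space X] (c : PresCx Pr p) : IsClosed c.Y := closed2 c _

/-- the cube is path connected -/
instance pcDk (n : ℕ) : PathConnectedSpace (Dk n) :=
  isPathConnected_iff_pathConnectedSpace.1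
    ((convex_closedBall (0 : Fin n → ℝ) 1).isPathConnected
      (nonempty_closedBall.2 zero_le_one))

/-- the point of the cube with all coordinates `-1` -/
def mone (n : ℕ) : Dk n := ⟨fun _ => -1, by
  rw [mem_closedBall_zero_iff, pi_norm_le_iff_of_nonneg zero_le_one]
  intro _
  norm_num⟩

theorem edge_mone (c : PresCx Pr p) (i : Fin Pr.gens) : c.edge i (mone 1) = c.e := by
  change c.a i (par (-1)) = c.e
  have : par (-1) = 0 := by
    rw [par]
    apply Subtype.ext
    rw [Set.coe_projIcc]
    norm_num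
  rw [this, (c.a i).source]

theorem b_mone (c : PresCx Pr p) (j : Fin Pr.rels) : c.b j (mone 2) = c.e := by
  refine (c.bdry j (mone 2) ?_).2 ?_
  · change ‖(fun _ => -1 : Fin 2 → ℝ)‖ = 1
    refine le_antisymm ((pi_norm_le_iff_of_nonneg zero_le_one).2 fun _ => by norm_num) ?_
    have := norm_le_pi_norm (fun _ => -1 : Fin 2 → ℝ) 0
    rwa [norm_neg, norm_one] at this
  · change (-1 : ℝ) ≠ 1
    norm_num

theorem range_sub_edge (c : PresCx Pr p) (i : Fin Pr.gens) :
    range (p.comp (c.edge i)) ⊆ c.Y := by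
  rintro _ ⟨z, rfl⟩
  exact mem_edge c i z

theorem range_sub_b (c : PresCx Pr p) (j : Fin Pr.rels) : range (p.comp (c.b j)) ⊆ c.Y := by
  rintro _ ⟨z, rfl⟩
  exact mem_b c j z

theorem isPathConnected_Y (c : PresCx Pr p) : IsPathConnected c.Y := by
  refine ⟨p c.e, mem_e c, ?_⟩
  have key : ∀ {n : ℕ} (f : C(Dk n, X)), range f ⊆ c.Y → p c.e ∈ range f →
      ∀ y ∈ range f, JoinedIn c.Y (p c.e) y := fun f hf he y hy =>
    ((isPathConnected_range f.continuous).joinedIn _ he _ hy).mono hf
  intro y hy
  rcases hy with (hy | hy) | hy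
  · rw [mem_singleton_iff.1 hy]
    exact JoinedIn.refl (mem_e c)
  · obtain ⟨i, _, hy⟩ := mem_iUnion₂.1 hy
    exact key _ (range_sub_edge c i) ⟨mone 1, congrArg p (edge_mone c i)⟩ _ hy
  · obtain ⟨j, _, hy⟩ := mem_iUnion₂.1 hy
    exact key _ (range_sub_b c j) ⟨mone 2, congrArg p (b_mone c j)⟩ _ hy

theorem pc (c : PresCx Pr p) : PathConnectedSpace c.Y :=
  isPathConnected_iff_pathConnectedSpace.1 (isPathConnected_Y c)

end Vale.Agent.P246.T.YP
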