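import Mathlib.Analysis.Normed.Module.Connected
import Vale.Agent.P246.T.CC
import Vale.Agent.P246.T.YP.Dec
import Vale.Agent.P246.T.YP.PC
import Vale.Agent.P246.T.YPDefs

/-! # Block YP: the edge loops generate the fundamental group of the presentation complex -/

namespace Vale.Agent.P246.T.YP

open Topology Metric Set

instance simpDk (n : ℕ) : SimplyConnectedSpace (Dk n) := by
  have : ContractibleSpace (Dk n) :=
    (convex_closedBall (0 : Fin n → ℝ) 1).contractibleSpace ⟨0, by simp⟩
  infer_instance

/-- the left end point of `[-1, 1]` -/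
def m1 : Dk 1 := ⟨fun _ => -1, by
  rw [mem_closedBall_zero_iff, pi_norm_le_iff_of_nonneg zero_le_one]; simp⟩

/-- the right end point of `[-1, 1]` -/
def p1 : Dk 1 := ⟨fun _ => 1, by
  rw [mem_closedBall_zero_iff, pi_norm_le_iff_of_nonneg zero_le_one]; simp⟩

theorem norm_one_cases {x : Dk 1} (h : ‖(x : Fin 1 → ℝ)‖ = 1) : x = m1 ∨ x = p1 := by
  have h1 : ‖(x : Fin 1 → ℝ)‖ = |(x : Fin 1 → ℝ) 0| := by
    rw [Pi.norm_def]
    simp
  rw [h1] at h
  rcases (abs_eq zero_le_one).1 h with h2 | h2
  · right
    apply Subtype.ext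
    funext i
    rw [Subsingleton.elim i 0]
    exact h2
  · left
    apply Subtype.ext
    funext i
    rw [Subsingleton.elim i 0]
    exact h2

theorem stdp_mem (t : I) : (fun _ : Fin 1 => 2 * (t : ℝ) - 1) ∈
    closedBall (0 : Fin 1 → ℝ) 1 := by
  have h0 := t.2.1
  have h1 := t.2.2
  rw [mem_closedBall_zero_iff, pi_norm_le_iff_of_nonneg zero_le_one]
  intro _
  rw [Real.norm_eq_abs, abs_le]
  constructor <;> linarith

/-- the path from `-1` to `1` -/
def stdp : Path m1 p1 where
  toFun t := ⟨fun _ => 2 * (t : ℝ) - 1, stdp_mem t⟩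
  continuous_toFun := Continuous.subtype_mk (by fun_prop) stdp_mem
  source' := by
    apply Subtype.ext
    funext i
    simp [m1]
  target' := by
    apply Subtype.ext
    funext i
    simp only [p1, Icc.coe_one]
    norm_num

theorem par_stdp (t : I) : par ((stdp t : Fin 1 → ℝ) 0) = t := by
  have h0 := t.2.1
  have h1 := t.2.2
  apply Subtype.ext
  rw [par, Set.coe_projIcc]
  have : (((stdp t : Fin 1 → ℝ) 0 + 1) / 2) = t := by
    have e : (stdp t : Fin 1 → ℝ) 0 = 2 * (t : ℝ) - 1 := rfl
    rw [e]
    ring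
  rw [this, min_eq_right h1, max_eq_right h0]

variable {G : Type} [Group G] {Pr : FinPresentation G} {X E : Type} [TopologicalSpace X]
    [TopologicalSpace E] [MulAction G E] [ContinuousConstSMul G E] {p : C(E, X)}

theorem Y1_mono (c : PresCx Pr p) {k l : ℕ} (h : k ≤ l) : c.Y1 k ⊆ c.Y1 l := by
  refine union_subset_union_right _ (iUnion_subset fun i => iUnion_subset fun hi => ?_)
  exact fun x hx => mem_iUnion₂.2 ⟨i, hi.trans_le h, hx⟩

theorem Y2_mono (c : PresCx Pr p) {k l : ℕ} (h : k ≤ l) : c.Y2 k ⊆ c.Y2 l := by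
  refine union_subset_union_right _ (iUnion_subset fun i => iUnion_subset fun hi => ?_)
  exact fun x hx => mem_iUnion₂.2 ⟨i, hi.trans_le h, hx⟩

/-- the subgroup which is generated by the edge loops -/
noncomputable def SG (c : PresCx Pr p) (hp : IsQuotientCoveringMap p G) :
    Subgroup (FundamentalGroup c.Y (b0 c)) :=
  Subgroup.closure (Set.range fun i : Fin Pr.gens =>
      (FundamentalGroup.fromPath (Path.Homotopic.Quotient.mk (edgeLoop c hp i)) :
        FundamentalGroup c.Y (b0 c)))

/-- the class of a loop -/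
noncomputable def cl (c : PresCx Pr p) (γ : Path (b0 c) (b0 c)) : FundamentalGroup c.Y (b0 c) :=
  FundamentalGroup.fromPath (Path.Homotopic.Quotient.mk γ)

theorem cl_trans (c : PresCx Pr p) (γ γ' : Path (b0 c) (b0 c)) :
    cl c (γ.trans γ') = cl c γ' * cl c γ := by
  rw [FundamentalGroup.mul_def]
  exact Path.Homotopic.Quotient.mk_trans γ γ'

theorem cl_symm (c : PresCx Pr p) (γ : Path (b0 c) (b0 c)) : cl c γ.symm = (cl c γ)⁻¹ := by
  rw [FundamentalGroup.inv_def]
  exact Path.Homotopic.Quotient.mk_symm γ

theorem cl_refl (c : PresCx Pr p) : cl c (Path.refl _) = 1 := by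
  rw [FundamentalGroup.one_def]
  exact Path.Homotopic.Quotient.mk_refl _

theorem cl_eq (c : PresCx Pr p) {γ γ' : Path (b0 c) (b0 c)} :
    cl c γ = cl c γ' ↔ γ.Homotopic γ' := Path.Homotopic.Quotient.eq

theorem smul_end (hp : IsQuotientCoveringMap p G) (c : PresCx Pr p) (i : Fin Pr.gens) {x : Dk 1}
    (hx : ‖(x : Fin 1 → ℝ)‖ = 1) : p (c.edge i x) = p c.e := by
  rcases norm_one_cases hx with rfl | rfl
  · change p (c.a i (par ((m1 : Fin 1 → ℝ) 0))) = _
    have h1 : (m1 : Fin 1 → ℝ) 0 = (stdp 0 : Fin 1 → ℝ) 0 := by rw [stdp.source]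
    rw [h1, par_stdp, (c.a i).source]
  · change p (c.a i (par ((p1 : Fin 1 → ℝ) 0))) = _
    have h1 : (p1 : Fin 1 → ℝ) 0 = (stdp 1 : Fin 1 → ℝ) 0 := by rw [stdp.target]
    rw [h1, par_stdp, (c.a i).target, hp.map_smul]

variable [T2Space X]

/-- loops in the 1-skeleton -/
theorem gen1 (hp : IsQuotientCoveringMap p G) (c : PresCx Pr p) (hc : c.Good) (k : ℕ)
    (hk : k ≤ Pr.gens) (γ : Path (b0 c) (b0 c)) (hγ : ∀ t, (γ t).1 ∈ c.Y1 k) :
    cl c γ ∈ SG c hp := by
  induction k generalizing γ with
  | zero =>
    have h1 : γ = Path.refl _ := by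
      ext t
      have h2 := hγ t
      rcases h2 with h2 | h2
      · exact h2
      · obtain ⟨i, hi, _⟩ := mem_iUnion₂.1 h2
        exact absurd hi (Nat.not_lt_zero _)
    rw [h1, cl_refl]
    exact one_mem _
  | succ k ih =>
    have hk' : k < Pr.gens := hk
    have h : CellData 1 Unit (c.Y1 (k + 1)) (c.Y1 k) (fun _ => p.comp (c.edge ⟨k, hk'⟩)) :=
      CC.main1 X 1 _ _ _ (closed1 c k) (hc.att1 ⟨k, hk'⟩)
    have hsub : c.Y1 (k + 1) ⊆ c.Y := (Y1_mono c hk).trans (Y1_sub c)
    let incl : C(c.Y1 (k + 1), c.Y) := ⟨Set.inclusion hsub, continuous_inclusion hsub⟩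
    let y0 : c.Y1 (k + 1) := ⟨p c.e, Or.inl rfl⟩
    let γ' : Path y0 y0 :=
      { toFun := fun t => ⟨(γ t).1, hγ t⟩
        continuous_toFun := (continuous_subtype_val.comp γ.continuous).subtype_mk _
        source' := Subtype.ext (by change (γ 0).1 = _; rw [γ.source]; rfl)
        target' := Subtype.ext (by change (γ 1).1 = _; rw [γ.target]; rfl) }
    have key := dec h {p c.e} (singleton_subset_iff.2 (Or.inl rfl))
      (fun x hx => smul_end hp c _ hx)
      (fun u v a => ∀ (hu : y0 = u) (hv : y0 = v),
        (FundamentalGroup.fromPath ((a.cast hu hv).map incl) : FundamentalGroup c.Y (b0 c)) ∈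
          SG c hp) ?_ ?_ ?_ y0 y0 γ' rfl rfl rfl rfl
    · rw [Path.Homotopic.Quotient.cast_rfl_rfl, ← Path.Homotopic.Quotient.mk_map] at key
      have h2 : γ'.map incl.continuous = γ := by
        ext t
        rfl
      rw [h2] at key
      exact key
    · intro u v w a b hu hv hw ha hb e1 e3
      have e2 : y0 = v := Subtype.ext hv.symm
      subst e1
      subst e2
      subst e3
      have h1 := ha rfl rfl
      have h2 := hb rfl rfl
      rw [Path.Homotopic.Quotient.cast_rfl_rfl] at h1 h2 ⊢
      induction a using Path.Homotopic.Quotient.ind with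
      | mk a =>
      induction b using Path.Homotopic.Quotient.ind with
      | mk b =>
      rw [← Path.Homotopic.Quotient.mk_trans, ← Path.Homotopic.Quotient.mk_map, Path.map_trans]
      rw [← Path.Homotopic.Quotient.mk_map] at h1 h2
      have h3 : ∀ a' b' : Path (b0 c) (b0 c), cl c a' ∈ SG c hp → cl c b' ∈ SG c hp →
          cl c (a'.trans b') ∈ SG c hp := by
        intro a' b' h1 h2
        rw [cl_trans]
        exact mul_mem h2 h1
      exact h3 _ _ h1 h2
    · intro u v δ hu hv hδ e1 e2
      subst e1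
      subst e2
      rw [Path.Homotopic.Quotient.cast_rfl_rfl, ← Path.Homotopic.Quotient.mk_map]
      exact ih (by omega) _ fun t => hδ t
    · intro x y β hx hy e1 e2
      have hone : ∀ (u v : c.Y1 (k + 1)) (e : u = v) (hu : y0 = u) (hv : y0 = v),
          (FundamentalGroup.fromPath
            (((Path.Homotopic.Quotient.refl u).cast hu (hv.trans e.symm)).map incl) :
              FundamentalGroup c.Y (b0 c)) ∈ SG c hp := by
        rintro _ _ rfl rfl _
        rw [Path.Homotopic.Quotient.cast_rfl_rfl, ← Path.Homotopic.Quotient.mk_refl,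
          ← Path.Homotopic.Quotient.mk_map]
        have h1 : (Path.refl y0).map incl.continuous = Path.refl (b0 c) := by
          ext t
          rfl
        rw [h1]
        change cl c _ ∈ _
        rw [cl_refl]
        exact one_mem _
      have hedge : ∀ (f : m1 = m1) (e1 : y0 = phB h m1) (e2 : y0 = phB h p1),
          (FundamentalGroup.fromPath
            (((Path.Homotopic.Quotient.mk (stdp.map (phB h).continuous)).cast e1 e2).map incl) :
              FundamentalGroup c.Y (b0 c)) =
            FundamentalGroup.fromPath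
              (Path.Homotopic.Quotient.mk (edgeLoop c hp ⟨k, hk'⟩)) := by
        intro _ e1 e2
        rw [← Path.Homotopic.Quotient.mk_cast, ← Path.Homotopic.Quotient.mk_map]
        congr 2
        ext t
        change p (c.a ⟨k, hk'⟩ (par ((stdp t : Fin 1 → ℝ) 0))) = p (c.a ⟨k, hk'⟩ t)
        rw [par_stdp]
      rcases norm_one_cases hx with rfl | rfl <;> rcases norm_one_cases hy with rfl | rfl
      · have h1 : Path.Homotopic.Quotient.mk β = Path.Homotopic.Quotient.mk (Path.refl _) :=
          Subsingleton.elim _ _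
        rw [Path.Homotopic.Quotient.mk_map, h1, ← Path.Homotopic.Quotient.mk_map]
        have h2 : (Path.refl m1).map (phB h).continuous = Path.refl _ := by
          ext t
          rfl
        rw [h2, Path.Homotopic.Quotient.mk_refl]
        exact hone _ _ rfl e1 e2
      · have h1 : Path.Homotopic.Quotient.mk β = Path.Homotopic.Quotient.mk stdp :=
          Subsingleton.elim _ _
        rw [Path.Homotopic.Quotient.mk_map, h1, ← Path.Homotopic.Quotient.mk_map, hedge rfl e1 e2]
        exact Subgroup.subset_closure ⟨⟨k, hk'⟩, rfl⟩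
      · have h1 : Path.Homotopic.Quotient.mk β = Path.Homotopic.Quotient.mk stdp.symm :=
          Subsingleton.elim _ _
        rw [Path.Homotopic.Quotient.mk_map, h1, ← Path.Homotopic.Quotient.mk_map,
          ← Path.Homotopic.Quotient.mk_cast, ← Path.Homotopic.Quotient.mk_map]
        have h2 : ((stdp.symm.map (phB h).continuous).cast e1 e2).map incl.continuous =
            (edgeLoop c hp ⟨k, hk'⟩).symm := by
          ext t
          change p (c.a ⟨k, hk'⟩ (par ((stdp (unitInterval.symm t) : Fin 1 → ℝ) 0))) =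
            p (c.a ⟨k, hk'⟩ (unitInterval.symm t))
          rw [par_stdp]
        rw [h2]
        change cl c _ ∈ _
        rw [cl_symm]
        exact inv_mem (Subgroup.subset_closure ⟨⟨k, hk'⟩, rfl⟩)
      · have h1 : Path.Homotopic.Quotient.mk β = Path.Homotopic.Quotient.mk (Path.refl _) :=
          Subsingleton.elim _ _
        rw [Path.Homotopic.Quotient.mk_map, h1, ← Path.Homotopic.Quotient.mk_map]
        have h2 : (Path.refl p1).map (phB h).continuous = Path.refl _ := by
          ext t
          rfl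
        rw [h2, Path.Homotopic.Quotient.mk_refl]
        exact hone _ _ rfl e1 e2

/-- loops in the 2-skeleton -/
theorem gen2 (hp : IsQuotientCoveringMap p G) (c : PresCx Pr p) (hc : c.Good) (k : ℕ)
    (hk : k ≤ Pr.rels) (γ : Path (b0 c) (b0 c)) (hγ : ∀ t, (γ t).1 ∈ c.Y2 k) :
    cl c γ ∈ SG c hp := by
  induction k generalizing γ with
  | zero =>
    refine gen1 hp c hc Pr.gens le_rfl γ fun t => ?_
    rcases hγ t with h2 | h2
    · exact h2
    · obtain ⟨i, hi, _⟩ := mem_iUnion₂.1 h2
      exact absurd hi (Nat.not_lt_zero _)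
  | succ k ih =>
    have hk' : k < Pr.rels := hk
    have h : CellData 2 Unit (c.Y2 (k + 1)) (c.Y2 k) (fun _ => p.comp (c.b ⟨k, hk'⟩)) :=
      CC.main1 X 2 _ _ _ (closed2 c k) (hc.att2 ⟨k, hk'⟩)
    have hsub : c.Y2 (k + 1) ⊆ c.Y := Y2_mono c hk
    let incl : C(c.Y2 (k + 1), c.Y) := ⟨Set.inclusion hsub, continuous_inclusion hsub⟩
    let y0 : c.Y2 (k + 1) := ⟨p c.e, Or.inl (Or.inl rfl)⟩
    let γ' : Path y0 y0 :=
      { toFun := fun t => ⟨(γ t).1, hγ t⟩
        continuous_toFun := (continuous_subtype_val.comp γ.continuous).subtype_mk _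
        source' := Subtype.ext (by change (γ 0).1 = _; rw [γ.source]; rfl)
        target' := Subtype.ext (by change (γ 1).1 = _; rw [γ.target]; rfl) }
    have hy0 : y0.1 ∈ c.Y2 k := Or.inl (Or.inl rfl)
    obtain ⟨δ, hδ, he⟩ := dec h (c.Y2 k) le_rfl (fun x hx => h.bdry () x hx)
      (fun u v a => ∃ δ : Path u v, (∀ t, (δ t).1 ∈ c.Y2 k) ∧ Path.Homotopic.Quotient.mk δ = a)
      (by
        rintro u v w _ _ _ _ _ ⟨δ, hδ, rfl⟩ ⟨δ', hδ', rfl⟩
        refine ⟨δ.trans δ', fun t => ?_, Path.Homotopic.Quotient.mk_trans _ _⟩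
        rw [Path.trans_apply]
        split_ifs
        · exact hδ _
        · exact hδ' _)
      (fun u v δ _ _ hδ => ⟨δ, hδ, rfl⟩)
      (by
        intro x y β hx hy
        have hr : 1 < Module.rank ℝ (Fin 2 → ℝ) := by
          rw [rank_fin_fun]
          norm_num
        have hj : JoinedIn (sphere (0 : Fin 2 → ℝ) 1) x y :=
          (isPathConnected_sphere hr 0 zero_le_one).joinedIn _ (by simpa using hx) _
            (by simpa using hy)
        have hn : ∀ t, ‖hj.somePath t‖ = 1 := fun t => by
          have := hj.somePath_mem t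
          simpa using this
        have hm : ∀ t, hj.somePath t ∈ closedBall (0 : Fin 2 → ℝ) 1 := fun t => by
          rw [mem_closedBall_zero_iff, hn]
        let β' : Path x y :=
          { toFun := fun t => ⟨hj.somePath t, hm t⟩
            continuous_toFun := hj.somePath.continuous.subtype_mk hm
            source' := Subtype.ext hj.somePath.source
            target' := Subtype.ext hj.somePath.target }
        refine ⟨β'.map (phB h).continuous, fun t => h.bdry () _ (hn t), ?_⟩
        rw [Path.Homotopic.Quotient.mk_map, Path.Homotopic.Quotient.mk_map]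
        congr 1
        exact Subsingleton.elim _ _) y0 y0 γ' hy0 hy0
    have h1 := ih (by omega) (δ.map incl.continuous) fun t => hδ t
    have h2 : cl c (δ.map incl.continuous) = cl c γ := by
      have h3 : γ'.map incl.continuous = γ := by
        ext t
        rfl
      have h4 := congrArg (fun a => Path.Homotopic.Quotient.map a incl) he
      change Path.Homotopic.Quotient.map _ incl = Path.Homotopic.Quotient.map _ incl at h4
      rw [← Path.Homotopic.Quotient.mk_map, ← Path.Homotopic.Quotient.mk_map, h3] at h4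
      exact h4
    rw [h2] at h1
    exact h1

/-- **The edge loops generate the fundamental group of the presentation complex.** -/
theorem gen (hp : IsQuotientCoveringMap p G) (c : PresCx Pr p) (hc : c.Good) :
    Subgroup.closure (Set.range fun i : Fin Pr.gens =>
      (FundamentalGroup.fromPath (Path.Homotopic.Quotient.mk (edgeLoop c hp i)) :
        FundamentalGroup c.Y (b0 c))) = ⊤ := by
  rw [eq_top_iff]
  intro a _
  obtain ⟨γ, rfl⟩ := Path.Homotopic.Quotient.mk_surjective a
  exact gen2 hp c hc Pr.rels le_rfl γ fun t => (γ t).2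

end Vale.Agent.P246.T.YP
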